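import Vale.Agent.P207.H824.PosK
import Vale.Agent.P207.H824.KMatR
import Vale.Agent.P207.H824.NSysN
import Vale.Agent.P207.H546.AnaF
import Vale.Agent.P207.H608.Hco
import Vale.Agent.P207.H256.SpecR
import Vale.Agent.P207.Low.Stmt

/-!
# P207 / H824: coercivity modulo gauge on the frame bundle, from block LOW
-/

open scoped Manifold ContDiff ENNReal Topology
open Bundle MeasureTheory Set Filter Topology

noncomputable section

set_option maxSynthPendingDepth 3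
set_option linter.unusedSectionVars false

namespace Vale.Agent.P207.H824

open Vale.Agent.P255 (RMetric coefIn Gam Riem innerAt)
open Vale.Agent.P207 Vale.Agent.P207.Q Vale.Agent.P207.H442 Vale.Agent.P207.H379

section Gen

variable {n : ℕ} {M : Type} [TopologicalSpace M] [ChartedSpace (EV n) M]
  [IsManifold 𝓘(ℝ, EV n) ∞ M] {g : RMetric (EV n) M}
variable [NeZero n] [CompactSpace M] [T2Space M] [MeasurableSpace M] [BorelSpace M]
  (D : Kat.Dat g) [Nonempty (Fr g)]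

theorem mem_symMat_iff {k : Fin n → Fin n → SmFr g} :
    k ∈ symMat (rotAll g) ↔ Kat.GT2 k := gT2_iff.symm

variable (g) in
theorem spc_fr : Spc (frCalc g) 0 (symMat (rotAll g)) (rotAll g).vec (rotStab g).adm :=
  spc_rot (fun _ hw => vec_stab hw) (fun _ hk => mat_stab hk)
    (fun _ hw => t1_of_GT1 (gT1_iff.2 hw)) fun _ hk => t2_of_GT2 (gT2_iff.2 hk)

theorem ana_fr : Ana (frCalc g) D.I D.h (symMat (rotAll g)) (rotAll g).vec :=
  H546.anaF D (fun _ => gT2_iff.symm) fun _ => gT1_iff.symm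

theorem posInt_fr : H316.PosInt D.I where
  pos f := (H734.iPos_I D).nonneg f
  bd φ := ⟨‖(φ : C(Fr g, ℝ))‖ ^ 2, by positivity, fun f =>
    int_mul_sq_le (φ : C(Fr g, ℝ)) (f : C(Fr g, ℝ))⟩

theorem h_zero_sq' (u : SmFr g) : D.h 0 u ^ 2 = D.I (u * u) := by
  have h1 : D.h 0 u = Real.sqrt (∫ p, (u : C(Fr g, ℝ)) p ^ 2 ∂D.mP) := rfl
  rw [h1, Real.sq_sqrt (integral_nonneg fun p => sq_nonneg _)]
  refine integral_congr_ae (Eventually.of_forall fun p => ?_)
  exact sq _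

theorem sc_fr : Sc (A := SmFr g) (ι := H955.Ix n) D.S.X D.I D.h where
  add := H734.hN_add D.S
  smul := H734.hN_smul D.S
  nonneg := H955.hN_nonneg D.S
  succ _ _ := rfl
  zero := h_zero_sq' D
  bd := (posInt_fr D).bd

theorem nm_fr {d : ℕ} (hd : D.SobOrd d) : Nm (frCalc g) D.I D.h (D.c 1) (1 + d) := by
  obtain ⟨K, hK, h1⟩ := hd
  exact (sc_fr D).nm Sum.inl (fun a b => Sum.inr (a, b)) (fun _ => rfl) (fun _ _ => rfl)
    (cN_add D.S 1) (cN_smul D.S 1) ⟨K, hK.le, fun u => h1 1 u⟩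

theorem I_one : D.I 1 = 1 := by
  change ∫ p, ((1 : SmFr g) : C(Fr g, ℝ)) p ∂D.mP = 1
  have h1 : ∀ p, ((1 : SmFr g) : C(Fr g, ℝ)) p = 1 := fun p => rfl
  simp only [h1, integral_const, smul_eq_mul, mul_one, probReal_univ]

end Gen

variable {m : ℕ} {M : Type} [TopologicalSpace M] [ChartedSpace (EV (m + 1)) M]
  [IsManifold 𝓘(ℝ, EV (m + 1)) ∞ M] {g : RMetric (EV (m + 1)) M}
variable [CompactSpace M] [T2Space M] [MeasurableSpace M] [BorelSpace M] [ConnectedSpace M]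
  (D : Kat.Dat g) [Nonempty (Fr g)]

/-- **coercivity modulo gauge from the positivity on the eigenspaces** -/
theorem posr_of_low (hm : 1 ≤ m) (hN : NegCurvature g) (hS : LocSymmetric g) {b c₀ d : ℝ}
    (hb : 0 < b) (hd : 0 < d) (hbc : 2 / b * (2 / b) * c₀ = m + 3 * d)
    (h : H662.Rk1 (H662.sc (frCalc g) (2 / b)) d) (hR : H469.RankOne (frCalc g) b c₀)
    (hR2 : H469.RankOne (H662.sc (frCalc g) (2 / b)) 2 (m + 3 * d))
    (hlow : Low.LOWStmt D b c₀) {s : ℕ} (hs : D.SobOrd s) : D.POSr (4 * s + 6) := by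
  obtain ⟨e₀, he₀, hE⟩ := exists_einstein (g := g) (by omega) hN hS
  have hPar : (frCalc g).Par := par_frCalc hS
  have hI : (frCalc g).IsInt D.I := H734.isInt_I D
  obtain ⟨K, hK, h1⟩ := pos_abs (h := D.h) (cn := D.c 1) (s₀ := 1 + s) hPar hI
    (by rw [I_one]; norm_num) (posInt_fr D) (nm_fr D hs) (fun f => (H734.iPos_I D).eq_zero f)
    (spc_fr g) (ana_fr D) he₀ hE (H469.k22 (frCalc g) b c₀)
    (fun l => H608.symProj_k22_E2 hPar hR (fun k hk => k22_mem b c₀ hk) (-l))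
    (c₁ := d / (2 * (d + 1))) (by positivity)
    (fun W hW => H608.hco hb hbc h hR2 hI (H734.iPos_I D).nonneg hd W hW)
    (fun l k hk hcas hdiv htr hne => by
      obtain ⟨y, hy, hcy, hQ⟩ := hlow l k (mem_symMat_iff.1 hk) hcas hdiv htr hne
      exact ⟨y, gAdm_iff.1 hy, hcy, hQ⟩)
  have e1 : 2 * (1 + s) + 2 * (1 + s + 1) = 4 * s + 6 := by ring
  rw [e1] at h1
  refine ⟨K, hK, fun k hk => ?_⟩
  obtain ⟨y, hy, hy1, hy2⟩ := h1 k (mem_symMat_iff.2 hk)
  exact ⟨y, gAdm_iff.2 hy, hy1, hy2⟩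

end Vale.Agent.P207.H824
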