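import Vale.Agent.P207.H824.PosF
import Vale.Agent.P207.H256.TopR
import Vale.Agent.P207.H662.GeoQ
import Vale.Agent.P207.Low.Fr

open scoped Manifold ContDiff ENNReal Topology
open Bundle MeasureTheory Set Filter Topology

noncomputable section

set_option maxSynthPendingDepth 3
set_option linter.unusedSectionVars false

namespace Vale.Agent.P207.H824

open Vale.Agent.P255 (RMetric)
open Vale.Agent.P207 Vale.Agent.P207.Q Vale.Agent.P207.H442

section Succ

variable {m : ℕ} {M : Type} [TopologicalSpace M] [ChartedSpace (EV (m + 1)) M]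
  [IsManifold 𝓘(ℝ, EV (m + 1)) ∞ M] {g : RMetric (EV (m + 1)) M}
variable [CompactSpace M] [T2Space M] [MeasurableSpace M] [BorelSpace M] [ConnectedSpace M]
  (D : Kat.Dat g) [Nonempty (Fr g)]

theorem posr_qc_succ (hN : NegCurvature g) (hS : LocSymmetric g) (hq : Kat.QCType g) :
    D.POSr (4 * H256.dF (m + 1) + 6) := by
  obtain ⟨b, c₀, d, hb, -, hbc, hd, hbd, hR, -, h, hR2⟩ := H662.exists_rk1_qc hS hN hq
  have hd0 : (0 : ℝ) < d := by
    have h1 : 0 < d := by omega
    exact_mod_cast h1
  exact posr_of_low D (by omega) hN hS hb hd0 hbc h hR hR2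
    (Low.low_qc D hS hN hb hbc hd hbd hR h) (H256.sobOrd D)

end Succ

variable {n : ℕ} {M : Type} [TopologicalSpace M] [ChartedSpace (EV n) M]
  [IsManifold 𝓘(ℝ, EV n) ∞ M] {g : RMetric (EV n) M}
variable [NeZero n] [CompactSpace M] [T2Space M] [MeasurableSpace M] [BorelSpace M]
  [ConnectedSpace M] (D : Kat.Dat g) [Nonempty (Fr g)]

/-- (POS) for the locally symmetric metrics of quaternionic or Cayley type, explicit order -/
theorem posr_qc (hN : NegCurvature g) (hS : LocSymmetric g) (hq : Kat.QCType g) :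
    D.POSr (4 * H256.dF n + 6) := by
  obtain ⟨m, rfl⟩ : ∃ m, n = m + 1 := ⟨n - 1, by
    have := NeZero.ne n
    omega⟩
  exact posr_qc_succ D hN hS hq

end Vale.Agent.P207.H824
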